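import Vale.Agent.P047.Defs

namespace Vale.Agent.P047
open Finset

variable {n : ℕ}

noncomputable def w (ρ : ℝ) (x : Fin n → Bool) : ℝ := ∏ i, (1 + ρ * sg (x i)) / 2

noncomputable def ph (ρ : ℝ) (T : Finset (Fin n)) (x : Fin n → Bool) : ℝ :=
  ∏ i ∈ T, (sg (x i) - ρ)

lemma w_nonneg {ρ : ℝ} (h : |ρ| ≤ 1) (x : Fin n → Bool) : 0 ≤ w ρ x := by
  rw [abs_le] at h
  refine Finset.prod_nonneg fun i _ => ?_
  unfold sg; split_ifs <;> linarith

lemma orth (ρ : ℝ) (T U : Finset (Fin n)) :
    ∑ x, w ρ x * (ph ρ T x * ph ρ U x) = if T = U then (1 - ρ ^ 2) ^ T.card else 0 := by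
  classical
  have e : ∀ x : Fin n → Bool, w ρ x * (ph ρ T x * ph ρ U x) =
      ∏ i, ((1 + ρ * sg (x i)) / 2 * ((if i ∈ T then sg (x i) - ρ else 1) *
        (if i ∈ U then sg (x i) - ρ else 1))) := by
    intro x
    simp only [Finset.prod_mul_distrib, Finset.prod_ite_mem, Finset.univ_inter, w, ph]
  simp only [e]
  rw [← Fintype.piFinset_univ, ← Finset.prod_univ_sum (fun _ => (univ : Finset Bool))
    (fun i b => (1 + ρ * sg b) / 2 * ((if i ∈ T then sg b - ρ else 1) *
        (if i ∈ U then sg b - ρ else 1)))]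
  split_ifs with h
  · subst h
    rw [← Finset.prod_const, ← Finset.univ_inter T, ← Finset.prod_ite_mem, Finset.univ_inter]
    refine Finset.prod_congr rfl fun i _ => ?_
    by_cases hi : i ∈ T <;> simp [hi, sg] <;> ring
  · obtain ⟨i, hi⟩ : ∃ i, ¬ (i ∈ T ↔ i ∈ U) := by
      by_contra hc
      push Not at hc
      exact h (Finset.ext hc)
    apply Finset.prod_eq_zero (Finset.mem_univ i)
    by_cases h1 : i ∈ T <;> by_cases h2 : i ∈ U <;> simp [h1, h2, sg] at hi ⊢ <;> ring

lemma expand (f : (Fin n → Bool) → ℝ) (x : Fin n → Bool) :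
    f x = ∑ S, fhat f S * ∏ i ∈ S, sg (x i) := by
  classical
  have key : ∀ y : Fin n → Bool, ∑ S : Finset (Fin n), (∏ i ∈ S, sg (y i)) * ∏ i ∈ S, sg (x i)
      = if y = x then 2 ^ n else 0 := by
    intro y
    simp only [← Finset.prod_mul_distrib]
    have := Finset.prod_one_add (s := (univ : Finset (Fin n))) (f := fun i => sg (y i) * sg (x i))
    rw [Finset.powerset_univ] at this
    rw [← this]
    split_ifs with h
    · subst h
      have : ∀ i, 1 + sg (y i) * sg (y i) = 2 := fun i => by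
        unfold sg; split_ifs <;> norm_num
      simp [this]
    · obtain ⟨i, hi⟩ := Function.ne_iff.1 h
      apply Finset.prod_eq_zero (Finset.mem_univ i)
      unfold sg
      cases h1 : y i <;> cases h2 : x i <;> simp_all
  simp only [fhat, div_mul_eq_mul_div, Finset.sum_mul, ← Finset.sum_div]
  rw [Finset.sum_comm]
  simp only [mul_assoc, ← Finset.mul_sum, key]
  simp

noncomputable def ac (f : (Fin n → Bool) → ℝ) (ρ : ℝ) (T : Finset (Fin n)) : ℝ :=
  ∑ S, if T ⊆ S then fhat f S * ρ ^ (S.card - T.card) else 0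

lemma expand_ph (f : (Fin n → Bool) → ℝ) (ρ : ℝ) (x : Fin n → Bool) :
    f x = ∑ T, ac f ρ T * ph ρ T x := by
  classical
  rw [expand f x]
  simp only [ac, Finset.sum_mul]
  rw [Finset.sum_comm]
  refine Finset.sum_congr rfl fun S _ => ?_
  have := Finset.prod_add (fun i => sg (x i) - ρ) (fun _ => ρ) S
  simp only [sub_add_cancel, Finset.prod_const] at this
  have hp : S.powerset = univ.filter (fun T => T ⊆ S) := by ext T; simp
  rw [this, Finset.mul_sum, hp, Finset.sum_filter]
  refine Finset.sum_congr rfl fun T _ => ?_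
  split_ifs with h
  · rw [Finset.card_sdiff_of_subset h, ph]; ring
  · simp

lemma pars (ρ : ℝ) (A : Finset (Finset (Fin n))) (a : Finset (Fin n) → ℝ)
    (e : Finset (Fin n) → Finset (Fin n)) (he : Set.InjOn e A) :
    ∑ x, w ρ x * (∑ T ∈ A, a T * ph ρ (e T) x) ^ 2
      = ∑ T ∈ A, a T ^ 2 * (1 - ρ ^ 2) ^ (e T).card := by
  classical
  have : ∀ x, w ρ x * (∑ T ∈ A, a T * ph ρ (e T) x) ^ 2 =
      ∑ T ∈ A, ∑ U ∈ A, a T * a U * (w ρ x * (ph ρ (e T) x * ph ρ (e U) x)) := by
    intro x
    rw [sq, Finset.sum_mul_sum, Finset.mul_sum]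
    refine Finset.sum_congr rfl fun T _ => ?_
    rw [Finset.mul_sum]
    exact Finset.sum_congr rfl fun U _ => by ring
  simp only [this]
  rw [Finset.sum_comm]
  refine Finset.sum_congr rfl fun T hT => ?_
  rw [Finset.sum_comm]
  simp only [← Finset.mul_sum, orth]
  rw [Finset.sum_eq_single T]
  · simp [sq]
  · intro U hU hne
    rw [if_neg (fun h => hne (he hT hU h).symm), mul_zero]
  · intro h; exact absurd hT h

lemma mean (ρ : ℝ) (A : Finset (Finset (Fin n))) (a : Finset (Fin n) → ℝ)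
    (e : Finset (Fin n) → Finset (Fin n)) :
    ∑ x, w ρ x * (∑ T ∈ A, a T * ph ρ (e T) x) = ∑ T ∈ A, if e T = ∅ then a T else 0 := by
  classical
  simp only [Finset.mul_sum]
  rw [Finset.sum_comm]
  refine Finset.sum_congr rfl fun T _ => ?_
  have := orth ρ (e T) ∅
  simp only [ph, Finset.prod_empty, mul_one] at this
  have e2 : ∀ x, w ρ x * (a T * ph ρ (e T) x) = a T * (w ρ x * ∏ i ∈ e T, (sg (x i) - ρ)) :=
    fun x => by rw [ph]; ring
  simp only [e2, ← Finset.mul_sum, this]
  split_ifs with h <;> simp [h]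

lemma single_le (f : (Fin n → Bool) → ℝ) (hf : ∀ x, f x = 1 ∨ f x = -1) {ρ : ℝ} (hρ : |ρ| ≤ 1)
    (i : Fin n) : |ac f ρ {i}| ≤
      ∑ T ∈ univ.filter (fun T => i ∈ T), ac f ρ T ^ 2 * (1 - ρ ^ 2) ^ (T.erase i).card := by
  classical
  set A := (univ : Finset (Finset (Fin n))).filter (fun T => i ∈ T) with hA
  set D : (Fin n → Bool) → ℝ := fun x => ∑ T ∈ A, ac f ρ T * ph ρ (T.erase i) x with hD
  have hDf : ∀ x, 2 * D x = f (Function.update x i true) - f (Function.update x i false) := by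
    intro x
    rw [expand_ph f ρ (Function.update x i true), expand_ph f ρ (Function.update x i false),
      ← Finset.sum_sub_distrib, hD, hA]
    simp only [Finset.sum_filter, Finset.mul_sum]
    refine Finset.sum_congr rfl fun T _ => ?_
    have er : ∀ (b : Bool) (U : Finset (Fin n)), i ∉ U →
        ph ρ U (Function.update x i b) = ph ρ U x := by
      intro b U hU
      refine Finset.prod_congr rfl fun j hj => ?_
      rw [Function.update_of_ne (by rintro rfl; exact hU hj)]
    split_ifs with h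
    · have e1 : ∀ b : Bool, ph ρ T (Function.update x i b) = (sg b - ρ) * ph ρ (T.erase i) x := by
        intro b
        rw [← er b _ (Finset.notMem_erase i T), ph, ph, ← Finset.mul_prod_erase T _ h]
        simp
      rw [e1, e1]; simp [sg]; ring
    · rw [er _ _ h, er _ _ h]; ring
  have habs : ∀ x, |D x| ≤ D x ^ 2 := by
    intro x
    have := hDf x
    rcases hf (Function.update x i true) with h1 | h1 <;>
      rcases hf (Function.update x i false) with h2 | h2 <;> rw [h1, h2] at this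
    · have : D x = 0 := by linarith
      simp [this]
    · have : D x = 1 := by linarith
      simp [this]
    · have : D x = -1 := by linarith
      simp [this]
    · have : D x = 0 := by linarith
      simp [this]
  have hinj : Set.InjOn (fun T : Finset (Fin n) => T.erase i) A := by
    intro T hT U hU h
    simp only [hA, Finset.coe_filter, Finset.mem_univ, true_and, Set.mem_setOf_eq] at hT hU
    rw [← Finset.insert_erase hT, ← Finset.insert_erase hU]
    exact congrArg _ h
  have hm : ∑ x, w ρ x * D x = ac f ρ {i} := by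
    rw [hD, mean, Finset.sum_eq_single {i}]
    · simp
    · intro T hT hne
      simp only [hA, Finset.mem_filter, Finset.mem_univ, true_and] at hT
      rw [if_neg]
      intro h
      apply hne
      rw [← Finset.insert_erase hT, h]; simp
    · intro h; simp [hA] at h
  rw [← pars ρ A (ac f ρ) _ hinj, ← hm]
  refine (Finset.abs_sum_le_sum_abs _ _).trans (Finset.sum_le_sum fun x _ => ?_)
  rw [abs_mul, abs_of_nonneg (w_nonneg hρ x)]
  exact mul_le_mul_of_nonneg_left (habs x) (w_nonneg hρ x)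

noncomputable def pp (f : (Fin n → Bool) → ℝ) (ρ : ℝ) : ℝ := ∑ S, fhat f S * ρ ^ S.card

noncomputable def pd (f : (Fin n → Bool) → ℝ) (ρ : ℝ) : ℝ :=
  ∑ S, fhat f S * (S.card * ρ ^ (S.card - 1))

lemma pp_deriv (f : (Fin n → Bool) → ℝ) (ρ : ℝ) : HasDerivAt (pp f) (pd f ρ) ρ := by
  unfold pp pd
  exact HasDerivAt.fun_sum fun S _ => (hasDerivAt_pow S.card ρ).const_mul _

lemma key (f : (Fin n → Bool) → ℝ) (hf : ∀ x, f x = 1 ∨ f x = -1) {d : ℕ}
    (hd : ∀ S, d < S.card → fhat f S = 0) {ρ : ℝ} (hρ : |ρ| ≤ 1) :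
    pp f ρ ^ 2 ≤ 1 ∧ (1 - ρ ^ 2) * |pd f ρ| ≤ d * (1 - pp f ρ ^ 2) := by
  classical
  have hσ : 0 ≤ 1 - ρ ^ 2 := by have := sq_abs ρ; nlinarith [abs_nonneg ρ]
  have h0 : ac f ρ ∅ = pp f ρ := by simp [ac, pp]
  have h1 : ∑ i, ac f ρ {i} = pd f ρ := by
    simp only [ac, pd, Finset.singleton_subset_iff, Finset.card_singleton]
    rw [Finset.sum_comm]
    refine Finset.sum_congr rfl fun S _ => ?_
    rw [← Finset.sum_filter]
    simp only [Finset.filter_mem_eq_inter, Finset.univ_inter, Finset.sum_const, nsmul_eq_mul]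
    ring
  have hz : ∀ T, d < T.card → ac f ρ T = 0 := by
    intro T hT
    refine Finset.sum_eq_zero fun S _ => ?_
    split_ifs with h
    · rw [hd S (hT.trans_le (Finset.card_le_card h)), zero_mul]
    · rfl
  have hP : ∑ T, ac f ρ T ^ 2 * (1 - ρ ^ 2) ^ T.card = 1 := by
    rw [← pars ρ univ (ac f ρ) (fun T => T) (fun _ _ _ _ h => h)]
    have := orth (n := n) ρ ∅ ∅
    simp only [ph, Finset.prod_empty, mul_one, if_true, Finset.card_empty, pow_zero] at this
    rw [← this]
    refine Finset.sum_congr rfl fun x _ => ?_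
    rw [← expand_ph]
    rcases hf x with h | h <;> simp [h]
  rw [← Finset.add_sum_erase _ _ (Finset.mem_univ ∅), h0] at hP
  simp only [Finset.card_empty, pow_zero, mul_one] at hP
  have hnn : 0 ≤ ∑ T ∈ univ.erase ∅, ac f ρ T ^ 2 * (1 - ρ ^ 2) ^ T.card :=
    Finset.sum_nonneg fun T _ => by positivity
  refine ⟨by linarith, ?_⟩
  calc (1 - ρ ^ 2) * |pd f ρ| ≤ (1 - ρ ^ 2) * ∑ i, ∑ T ∈ univ.filter (fun T => i ∈ T),
          ac f ρ T ^ 2 * (1 - ρ ^ 2) ^ (T.erase i).card := by
        rw [← h1]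
        gcongr
        exact (Finset.abs_sum_le_sum_abs _ _).trans
          (Finset.sum_le_sum fun i _ => single_le f hf hρ i)
    _ = ∑ T, (T.card : ℝ) * (ac f ρ T ^ 2 * (1 - ρ ^ 2) ^ T.card) := by
        simp only [Finset.sum_filter, Finset.mul_sum]
        rw [Finset.sum_comm]
        refine Finset.sum_congr rfl fun T _ => ?_
        have : ∀ i, (1 - ρ ^ 2) * (if i ∈ T then ac f ρ T ^ 2 * (1 - ρ ^ 2) ^ (T.erase i).card
            else 0) = if i ∈ T then ac f ρ T ^ 2 * (1 - ρ ^ 2) ^ T.card else 0 := by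
          intro i
          split_ifs with h
          · rw [← Finset.card_erase_add_one h]; ring
          · simp
        simp only [this]
        rw [← Finset.sum_filter]
        simp [Finset.filter_mem_eq_inter]
    _ = ∑ T ∈ univ.erase ∅, (T.card : ℝ) * (ac f ρ T ^ 2 * (1 - ρ ^ 2) ^ T.card) := by
        rw [← Finset.add_sum_erase _ _ (Finset.mem_univ ∅)]; simp
    _ ≤ ∑ T ∈ univ.erase ∅, (d : ℝ) * (ac f ρ T ^ 2 * (1 - ρ ^ 2) ^ T.card) := by
        refine Finset.sum_le_sum fun T _ => ?_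
        by_cases h : d < T.card
        · simp [hz T h]
        · have : (T.card : ℝ) ≤ d := by exact_mod_cast not_lt.1 h
          gcongr
    _ = _ := by rw [← Finset.mul_sum]; congr 1; linarith

end Vale.Agent.P047
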