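import Mathlib

namespace Vale.Agent.P047

/-- the sign `±1` encoded by a Boolean -/
def sg (b : Bool) : ℝ := if b then 1 else -1

/-- Fourier coefficient `E[f(X) ∏_{i ∈ S} X_i]`, `X` uniform on `{-1,1}^n` -/
noncomputable def fhat {n : ℕ} (f : (Fin n → Bool) → ℝ) (S : Finset (Fin n)) : ℝ :=
  (∑ x : Fin n → Bool, f x * ∏ i ∈ S, sg (x i)) / 2 ^ n

end Vale.Agent.P047
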