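import Mathlib

namespace Vale.Agent.P047
open Finset Complex

noncomputable def th (d k : ℕ) : ℝ := (2 * k + 1) * Real.pi / (2 * d)

noncomputable def ee (l : ℤ) (θ : ℝ) : ℂ := Complex.exp (l * θ * I)

noncomputable def lam (d : ℕ) (θ : ℝ) : ℝ :=
  ((∑ a ∈ range d, Real.cos (a * θ)) ^ 2 + (∑ a ∈ range d, Real.sin (a * θ)) ^ 2) / (2 * d)

lemma ee_add (l m : ℤ) (θ : ℝ) : ee (l + m) θ = ee l θ * ee m θ := by
  simp only [ee, ← Complex.exp_add]; congr 1; push_cast; ring

lemma ee_eq (l : ℤ) (θ : ℝ) : ee l θ = Real.cos (l * θ) + Real.sin (l * θ) * I := by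
  rw [ee, show (l : ℂ) * θ * I = ((l * θ : ℝ) : ℂ) * I by push_cast; ring, Complex.exp_mul_I]
  push_cast; ring

lemma ee_d {d : ℕ} (hd : 0 < d) (k : ℕ) : ee d (th d k) = I * (-1) ^ k := by
  have hd' : (d : ℂ) ≠ 0 := by exact_mod_cast hd.ne'
  have : ((d : ℤ) : ℂ) * (th d k : ℝ) * I = k * (Real.pi * I) + Real.pi / 2 * I := by
    simp only [th]; push_cast; field_simp
  rw [ee, this, Complex.exp_add, Complex.exp_nat_mul, Complex.exp_pi_mul_I,
    Complex.exp_pi_div_two_mul_I, mul_comm]

lemma Gsum {d : ℕ} (hd : 0 < d) (l : ℤ) (h1 : -(2 * d : ℤ) < l) (h2 : l < 4 * d) :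
    ∑ k ∈ range (2 * d), ee l (th d k) =
      (if l = 0 then (2 * d : ℂ) else 0) - (if l = 2 * d then (2 * d : ℂ) else 0) := by
  have hd' : (d : ℂ) ≠ 0 := by exact_mod_cast hd.ne'
  by_cases h0 : l = 0
  · subst h0
    have : ¬ ((0 : ℤ) = 2 * d) := by omega
    simp [ee, this]
  by_cases h3 : l = 2 * d
  · have : ∀ k, ee l (th d k) = -1 := by
      intro k
      rw [h3, two_mul, ee_add, ee_d hd, mul_mul_mul_comm, ← mul_pow]; simp
    simp only [this]
    rw [if_neg h0, if_pos h3]
    simp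
  rw [if_neg h0, if_neg h3, sub_zero]
  set z := Complex.exp (l * Real.pi / d * I) with hz
  have e : ∀ k : ℕ, ee l (th d k) = Complex.exp (l * Real.pi / (2 * d) * I) * z ^ k := by
    intro k
    rw [hz, ← Complex.exp_nat_mul, ← Complex.exp_add, ee]
    congr 1
    simp only [th]; push_cast; field_simp; ring
  simp only [e, ← Finset.mul_sum]
  have z1 : z ^ (2 * d) = 1 := by
    rw [hz, ← Complex.exp_nat_mul, ← Complex.exp_int_mul_two_pi_mul_I l]
    congr 1
    push_cast; field_simp
  have z2 : z ≠ 1 := by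
    intro h
    rw [hz, Complex.exp_eq_one_iff] at h
    obtain ⟨m, hm⟩ := h
    have hpi : (Real.pi : ℂ) ≠ 0 := by exact_mod_cast Real.pi_ne_zero
    have : (l : ℂ) = 2 * d * m := by
      field_simp at hm
      linear_combination hm
    have hl : l = 2 * d * m := by exact_mod_cast this
    have hd2 : (0 : ℤ) < d := by exact_mod_cast hd
    have m1 : -1 < m := by nlinarith
    have m2 : m < 2 := by nlinarith
    have : m = 0 ∨ m = 1 := by omega
    rcases this with rfl | rfl <;> omega
  rw [geom_sum_eq z2, z1]; simp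

lemma lam_eq {d : ℕ} (θ : ℝ) : ((lam d θ : ℝ) : ℂ) =
    (∑ a ∈ range d, ∑ b ∈ range d, ee ((a : ℤ) - b) θ) / (2 * d) := by
  have : ∑ a ∈ range d, ∑ b ∈ range d, ee ((a : ℤ) - b) θ =
      (∑ a ∈ range d, ee a θ) * ∑ b ∈ range d, ee (-(b : ℤ)) θ := by
    rw [Finset.sum_mul_sum]
    simp only [sub_eq_add_neg, ee_add]
  rw [this]
  simp only [ee_eq, Finset.sum_add_distrib, ← Finset.sum_mul, lam, Int.cast_neg, Int.cast_natCast,
    neg_mul, Real.cos_neg, Real.sin_neg, Complex.ofReal_neg, Finset.sum_neg_distrib,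
    ← Complex.ofReal_sum]
  push_cast
  congr 1
  linear_combination (∑ a ∈ range d, Complex.sin (a * θ)) ^ 2 * Complex.I_sq

lemma cnt (d : ℕ) (r : ℤ) (hr : r ≤ d) (c : ℂ) :
    ∑ a ∈ range d, ∑ b ∈ range d, (if (b : ℤ) = a + d - r then c else 0) = (r.toNat : ℂ) * c := by
  have : ∀ a ∈ range d, ∑ b ∈ range d, (if (b : ℤ) = a + d - r then c else 0)
      = if a < r.toNat then c else 0 := by
    intro a ha
    split_ifs with h
    · rw [Finset.sum_eq_single (a + d - r.toNat)]
      · rw [if_pos (by omega)]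
      · intro b _ hb; rw [if_neg (by omega)]
      · intro hb; exfalso; apply hb; rw [Finset.mem_range]; omega
    · refine Finset.sum_eq_zero fun b hb => ?_
      rw [Finset.mem_range] at hb
      rw [if_neg (by omega)]
  rw [Finset.sum_congr rfl this, ← Finset.sum_filter]
  have : (range d).filter (fun a => a < r.toNat) = range r.toNat := by
    ext a; simp only [Finset.mem_filter, Finset.mem_range]; omega
  rw [this]; simp

lemma sum_lam {d : ℕ} (hd : 0 < d) : ∑ k ∈ range (2 * d), lam d (th d k) = d := by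
  have hd' : (d : ℂ) ≠ 0 := by exact_mod_cast hd.ne'
  apply Complex.ofReal_injective
  push_cast
  simp only [lam_eq, ← Finset.sum_div]
  rw [Finset.sum_comm]
  have : ∀ a ∈ range d, ∑ k ∈ range (2 * d), ∑ b ∈ range d, ee ((a : ℤ) - b) (th d k)
      = ∑ b ∈ range d, (if (b : ℤ) = a + d - d then (2 * d : ℂ) else 0) := by
    intro a ha
    rw [Finset.sum_comm]
    refine Finset.sum_congr rfl fun b hb => ?_
    rw [Finset.mem_range] at ha hb
    rw [Gsum hd _ (by omega) (by omega), if_neg (show ¬ ((a : ℤ) - b = 2 * d) by omega), sub_zero]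
    exact if_congr (by omega) rfl rfl
  rw [Finset.sum_congr rfl this, cnt d d le_rfl]
  simp only [Int.toNat_natCast]
  field_simp

lemma riesz_e {d : ℕ} (hd : 0 < d) (m : ℤ) (hm : |m| ≤ d) :
    ∑ k ∈ range (2 * d), (-1) ^ k * (lam d (th d k) : ℂ) * ee m (th d k) = I * m := by
  have hd' : (d : ℂ) ≠ 0 := by exact_mod_cast hd.ne'
  rw [abs_le] at hm
  have e : ∀ k, (-1) ^ k * (lam d (th d k) : ℂ) * ee m (th d k) =
      -I / (2 * d) * ∑ a ∈ range d, ∑ b ∈ range d, ee ((a : ℤ) - b + m + d) (th d k) := by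
    intro k
    simp only [ee_add, ← Finset.sum_mul]
    rw [lam_eq, ee_d hd]
    field_simp
    rw [Complex.I_sq]; ring
  simp only [e, ← Finset.mul_sum]
  rw [Finset.sum_comm]
  have : ∀ a ∈ range d, ∑ k ∈ range (2 * d), ∑ b ∈ range d, ee ((a : ℤ) - b + m + d) (th d k)
      = ∑ b ∈ range d, (if (b : ℤ) = a + d - (-m) then (2 * d : ℂ) else 0)
        - ∑ b ∈ range d, (if (a : ℤ) = b + d - m then (2 * d : ℂ) else 0) := by
    intro a ha
    rw [Finset.sum_comm, ← Finset.sum_sub_distrib]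
    refine Finset.sum_congr rfl fun b hb => ?_
    rw [Finset.mem_range] at ha hb
    rw [Gsum hd _ (by omega) (by omega)]
    congr 1 <;> exact if_congr (by omega) rfl rfl
  rw [Finset.sum_congr rfl this, Finset.sum_sub_distrib, cnt d (-m) (by omega), Finset.sum_comm,
    cnt d m hm.2]
  have h3 : ((m.toNat : ℂ)) - ((-m).toNat : ℂ) = m := by
    have := Int.toNat_sub_toNat_neg m
    exact_mod_cast this
  rw [← h3]
  field_simp
  ring

lemma riesz_sin {d : ℕ} (hd : 0 < d) (j : ℕ) : ∀ m : ℤ, j + |m| ≤ d →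
    ∑ k ∈ range (2 * d), (-1) ^ k * (lam d (th d k) : ℂ) *
      ((Real.sin (th d k) : ℂ) ^ j * ee m (th d k))
      = if j = 0 then I * m else if j = 1 then 1 else 0 := by
  induction j with
  | zero => intro m hm; simpa using riesz_e hd m (by simpa using hm)
  | succ j ih =>
    intro m hm
    have a1 := ih (m + 1) (by
      have := abs_add_le m 1
      simp only [abs_one] at this
      push_cast at hm; omega)
    have a2 := ih (m + -1) (by
      have := abs_add_le m (-1)
      simp only [abs_neg, abs_one] at this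
      push_cast at hm; omega)
    have e : ∀ θ : ℝ, (Real.sin θ : ℂ) ^ (j + 1) * ee m θ =
        -I / 2 * ((Real.sin θ : ℂ) ^ j * ee (m + 1) θ - (Real.sin θ : ℂ) ^ j * ee (m + -1) θ) := by
      intro θ
      rw [ee_add, ee_add, ee_eq 1, ee_eq (-1)]
      simp only [Int.cast_one, one_mul, Int.cast_neg, neg_mul, Real.cos_neg, Real.sin_neg,
        Complex.ofReal_neg]
      linear_combination (Real.sin θ : ℂ) ^ (j + 1) * ee m θ * Complex.I_sq
    have e2 : ∀ k, (-1) ^ k * (lam d (th d k) : ℂ) *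
        ((Real.sin (th d k) : ℂ) ^ (j + 1) * ee m (th d k)) =
        -I / 2 * ((-1) ^ k * (lam d (th d k) : ℂ) *
          ((Real.sin (th d k) : ℂ) ^ j * ee (m + 1) (th d k)) - (-1) ^ k * (lam d (th d k) : ℂ) *
          ((Real.sin (th d k) : ℂ) ^ j * ee (m + -1) (th d k))) := by
      intro k; rw [e]; ring
    simp only [e2, ← Finset.mul_sum, Finset.sum_sub_distrib, a1, a2]
    rcases j with _ | _ | j
    · simp only [if_true, zero_add, one_ne_zero, if_false]
      push_cast
      linear_combination (-1 : ℂ) * Complex.I_sq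
    · simp
    · simp

lemma riesz_real {d : ℕ} (hd : 0 < d) (j : ℕ) (hj : j ≤ d) :
    ∑ k ∈ range (2 * d), (-1) ^ k * lam d (th d k) * Real.sin (th d k) ^ j
      = if j = 1 then 1 else 0 := by
  have := riesz_sin hd j 0 (by simpa using hj)
  apply Complex.ofReal_injective
  simp only [ee, Int.cast_zero, zero_mul, Complex.exp_zero, mul_one, mul_zero] at this
  push_cast at this ⊢
  rw [this]
  rcases j with _ | _ | j <;> simp

end Vale.Agent.P047
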