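import Vale.Agent.P047.Main

namespace Vale.Agent.P047
open Finset

variable {n : ℕ}

lemma gap3 (f : (Fin n → Bool) → ℝ) (hf : ∀ x, f x = 1 ∨ f x = -1) {d : ℕ}
    (hd : ∀ S, d < S.card → fhat f S = 0) (hd16 : 16 ≤ d) {x : ℝ} (hx0 : 0 ≤ x)
    (hx : d * x ≤ 1.5708) : pp f x - pp f (-x) ≤ 1.8419 := by
  have hd' : (16 : ℝ) ≤ d := by exact_mod_cast hd16
  have hx1 : x ≤ 0.1 := by nlinarith
  have hb : ∀ ρ : ℝ, |ρ| ≤ x → -1 ≤ pp f ρ ∧ pp f ρ ≤ 1 ∧
      0.99 * pd f ρ ≤ d * (1 - pp f ρ ^ 2) := by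
    intro ρ hρ
    obtain ⟨k1, k2⟩ := key f hf hd (ρ := ρ) (by linarith)
    refine ⟨by nlinarith, by nlinarith, ?_⟩
    have : ρ ^ 2 ≤ 0.01 := by have := sq_abs ρ; nlinarith [abs_nonneg ρ]
    nlinarith [le_abs_self (pd f ρ), abs_nonneg (pd f ρ)]
  set K : ℝ := 2.0223 * d with hK
  let φ : ℝ → ℝ := fun ρ => K * ρ - (Real.log (1.001 + pp f ρ) - Real.log (1.001 - pp f ρ))
  have hφ : ∀ ρ : ℝ, |ρ| ≤ x → HasDerivAt φ
      (K - (pd f ρ / (1.001 + pp f ρ) - (-pd f ρ) / (1.001 - pp f ρ))) ρ := by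
    intro ρ hρ
    obtain ⟨b1, b2, -⟩ := hb ρ hρ
    have d1 := ((pp_deriv f ρ).const_add 1.001).log (by linarith)
    have d2 := ((pp_deriv f ρ).const_sub 1.001).log (by linarith)
    have d3 := (hasDerivAt_id ρ).const_mul K
    simp only [mul_one] at d3
    exact d3.sub (d1.sub d2)
  have mono : MonotoneOn φ (Set.Icc (-x) x) := by
    apply monotoneOn_of_deriv_nonneg (convex_Icc _ _)
    · intro ρ hρ
      exact (hφ ρ (abs_le.2 hρ)).continuousAt.continuousWithinAt
    · intro ρ hρ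
      have hρ2 : ρ ∈ Set.Icc (-x) x := interior_subset hρ
      exact (hφ ρ (abs_le.2 hρ2)).differentiableAt.differentiableWithinAt
    · intro ρ hρ
      have hρ2 : ρ ∈ Set.Icc (-x) x := interior_subset hρ
      have hρ' : |ρ| ≤ x := abs_le.2 hρ2
      rw [(hφ ρ hρ').deriv]
      obtain ⟨b1, b2, b3⟩ := hb ρ hρ'
      have p1 : 0 < 1.001 + pp f ρ := by linarith
      have p2 : 0 < 1.001 - pp f ρ := by linarith
      rw [sub_nonneg, div_sub_div _ _ p1.ne' p2.ne', div_le_iff₀ (by positivity), hK]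
      have h0 : 0 ≤ 1 - pp f ρ ^ 2 := by nlinarith
      have : d * (1 - pp f ρ ^ 2) ≤ d * ((1.001 + pp f ρ) * (1.001 - pp f ρ)) := by
        apply mul_le_mul_of_nonneg_left _ (by linarith); nlinarith
      have h2 : 0 ≤ d * ((1.001 + pp f ρ) * (1.001 - pp f ρ)) := by positivity
      nlinarith
  have hm := mono (a := -x) (b := x) ⟨le_rfl, by linarith⟩ ⟨by linarith, le_rfl⟩ (by linarith)
  obtain ⟨u1, u2, -⟩ := hb x (by rw [abs_of_nonneg hx0])
  obtain ⟨v1, v2, -⟩ := hb (-x) (by rw [abs_neg, abs_of_nonneg hx0])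
  simp only [φ] at hm
  set u := pp f x
  set v := pp f (-x)
  have hE : Real.exp 6.354 ≤ 576 := by
    have e1 : Real.exp 6.354 = Real.exp 1 ^ 6 * Real.exp 0.00553125 ^ 64 := by
      rw [← Real.exp_nat_mul, ← Real.exp_nat_mul, ← Real.exp_add]; norm_num
    have e2 : Real.exp 0.00553125 ≤ 1 / (1 - 0.00553125) :=
      Real.exp_bound_div_one_sub_of_interval (by norm_num) (by norm_num)
    have e3 : Real.exp 1 ^ 6 ≤ 2.7183 ^ 6 := by
      gcongr; linarith [Real.exp_one_lt_d9]
    rw [e1]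
    calc Real.exp 1 ^ 6 * Real.exp 0.00553125 ^ 64 ≤ 2.7183 ^ 6 * (1 / (1 - 0.00553125)) ^ 64 := by gcongr
      _ ≤ 576 := by norm_num
  have hlog : Real.log ((1.001 + u) * (1.001 - v)) ≤
      Real.log (576 * ((1.001 - u) * (1.001 + v))) := by
    rw [Real.log_mul (by linarith) (by linarith), Real.log_mul (by norm_num)
      (by apply mul_ne_zero <;> linarith), Real.log_mul (by linarith) (by linarith)]
    have : (6.354 : ℝ) ≤ Real.log 576 := by
      rw [Real.le_log_iff_exp_le (by norm_num)]; exact hE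
    have : K * x ≤ 3.177 := by rw [hK]; nlinarith
    linarith
  rw [Real.log_le_log_iff (by apply mul_pos <;> linarith)
    (by apply mul_pos (by norm_num); apply mul_pos <;> linarith)] at hlog
  by_contra hc
  push Not at hc
  have hδ : u - v ≤ 2 := by linarith
  nlinarith [sq_nonneg (u + v), mul_nonneg (sub_nonneg.2 hc.le) (sub_nonneg.2 hδ)]

theorem upper3 (f : (Fin n → Bool) → ℝ) (hf : ∀ x, f x = 1 ∨ f x = -1) {d : ℕ}
    (hd : ∀ S, d < S.card → fhat f S = 0) (hd16 : 16 ≤ d) :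
    ∑ i, fhat f {i} ≤ 0.936 * d := by
  classical
  have hd0 : 0 < d := by omega
  have hd' : (0 : ℝ) < d := by exact_mod_cast hd0
  have hL : ∑ i, fhat f {i} =
      ∑ k ∈ range (2 * d), (-1) ^ k * lam d (th d k) * pp f (Real.sin (th d k)) := by
    simp only [pp, Finset.mul_sum]
    rw [Finset.sum_comm]
    have : ∀ S : Finset (Fin n), ∑ k ∈ range (2 * d), (-1) ^ k * lam d (th d k) *
        (fhat f S * Real.sin (th d k) ^ S.card) = if S.card = 1 then fhat f S else 0 := by
      intro S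
      by_cases h : d < S.card
      · simp [hd S h]
      · have := riesz_real hd0 S.card (not_lt.1 h)
        calc _ = fhat f S * ∑ k ∈ range (2 * d), (-1) ^ k * lam d (th d k) *
              Real.sin (th d k) ^ S.card := by
              rw [Finset.mul_sum]; exact Finset.sum_congr rfl fun k _ => by ring
          _ = _ := by rw [this]; split_ifs <;> simp
    simp only [this]
    rw [← Finset.sum_filter]
    have hF : (univ : Finset (Finset (Fin n))).filter (fun S => S.card = 1)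
        = univ.image (fun i : Fin n => ({i} : Finset (Fin n))) := by
      ext S
      simp only [Finset.mem_filter, Finset.mem_univ, true_and, Finset.mem_image,
        Finset.card_eq_one]
      exact exists_congr fun a => eq_comm
    rw [hF, Finset.sum_image (fun a _ b _ h => Finset.singleton_injective h)]
  set g : ℕ → ℝ := fun k => lam d (th d k) * (1 - (-1) ^ k * pp f (Real.sin (th d k))) with hg
  have hpp : ∀ θ, |pp f (Real.sin θ)| ≤ 1 := fun θ =>
    abs_le_one_iff_mul_self_le_one.2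
      (by have := (key f hf hd (Real.abs_sin_le_one θ)).1; nlinarith)
  have hg0 : ∀ k, 0 ≤ g k := by
    intro k
    apply mul_nonneg (lam_nonneg _ _)
    have := le_abs_self ((-1) ^ k * pp f (Real.sin (th d k)))
    rw [abs_mul, abs_neg_one_pow, one_mul] at this
    linarith [hpp (th d k)]
  have hs : ∑ k ∈ range (2 * d), g k = d - ∑ i, fhat f {i} := by
    rw [hL, ← sum_lam hd0, ← Finset.sum_sub_distrib]
    exact Finset.sum_congr rfl fun k _ => by simp only [hg]; ring
  have h2 : g 0 + g (2 * d - 1) ≤ ∑ k ∈ range (2 * d), g k := by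
    rw [← Finset.sum_pair (show 0 ≠ 2 * d - 1 by omega)]
    apply Finset.sum_le_sum_of_subset_of_nonneg _ (fun k _ _ => hg0 k)
    intro k hk
    simp only [Finset.mem_insert, Finset.mem_singleton] at hk
    rw [Finset.mem_range]; omega
  have t0 : th d 0 = Real.pi / (2 * d) := by simp [th]
  have t1 : th d (2 * d - 1) = 2 * Real.pi - Real.pi / (2 * d) := by
    rw [th, Nat.cast_sub (by omega)]; push_cast; field_simp; ring
  have c0 : (d : ℝ) * (Real.pi / (2 * d)) = Real.pi / 2 := by field_simp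
  have l0 := lam_ge hd0 (th d 0) (by rw [t0, c0, Real.cos_pi_div_two]) (by rw [t0])
  have l1 := lam_ge hd0 (th d (2 * d - 1))
    (by rw [t1, mul_sub, c0, Real.cos_nat_mul_two_pi_sub, Real.cos_pi_div_two])
    (by rw [t1, Real.cos_two_pi_sub])
  have hodd : (-1 : ℝ) ^ (2 * d - 1) = -1 := Odd.neg_one_pow ⟨d - 1, by omega⟩
  have hx0 : 0 ≤ Real.sin (Real.pi / (2 * d)) := by
    apply Real.sin_nonneg_of_nonneg_of_le_pi (by positivity)
    rw [div_le_iff₀ (by positivity)]
    have : (1 : ℝ) ≤ d := by exact_mod_cast hd0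
    nlinarith [Real.pi_pos]
  have hx1 : d * Real.sin (Real.pi / (2 * d)) ≤ 1.5708 := by
    have := Real.sin_le (x := Real.pi / (2 * d)) (by positivity)
    have := mul_le_mul_of_nonneg_left this hd'.le
    rw [c0] at this
    linarith [Real.pi_lt_d4]
  have hgap := gap3 f hf hd hd16 hx0 hx1
  have a0 := abs_le.1 (hpp (Real.pi / (2 * d)))
  have a1 := abs_le.1 (hpp (-(Real.pi / (2 * d))))
  rw [Real.sin_neg] at a1
  have g0 : 0.405 * d * (1 - pp f (Real.sin (Real.pi / (2 * d)))) ≤ g 0 := by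
    simp only [hg, pow_zero, one_mul]
    rw [t0] at l0 ⊢
    exact mul_le_mul_of_nonneg_right l0 (by linarith)
  have g1 : 0.405 * d * (1 + pp f (-Real.sin (Real.pi / (2 * d)))) ≤ g (2 * d - 1) := by
    simp only [hg, hodd]
    rw [t1] at l1 ⊢
    rw [Real.sin_two_pi_sub, neg_mul, one_mul, sub_neg_eq_add]
    exact mul_le_mul_of_nonneg_right l1 (by linarith)
  nlinarith

end Vale.Agent.P047
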